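import Vale.Agent.P231.SV.Fib
import Vale.Agent.P231.S3B1.Gc

/-!
# P231, stage 3, [S3-B] SPH-VAL (3): the integral of `B0` over the spheres of the corner loops
-/

set_option maxSynthPendingDepth 3
set_option linter.unusedSectionVars false
set_option linter.unusedVariables false

open Bundle Manifold Set Filter Module MeasureTheory
open scoped ContDiff Manifold Topology

namespace Vale.Agent.P231.SV

noncomputable section

open Vale.Agent.P234 Vale.Agent.P231 Vale.Agent.P231.Fm Vale.Agent.P231.W Vale.Agent.P231.WR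
open Vale.Agent.P231.S2II Vale.Agent.P231.CoZ
open Vale.Agent.P231.Fm (Sm Dif Form Lam)
open Vale.Agent.P231.TW (JJ)
open Vale.Agent.P231.S2N (Fam Pm Th0 XX Th0_XX Th0_mem)
open Vale.Agent.P231.S3B1 (sph odd' sphv foot_sph vec'_sph alc bec)

variable {E : Type*} [NormedAddCommGroup E] [NormedSpace ℝ E]
  {M : Type*} [MetricSpace M] [ChartedSpace E M]
  [RiemannianBundle (fun x : M => TangentSpace 𝓘(ℝ, E) x)]
  {e : ∀ x : M, TangentSpace 𝓘(ℝ, E) x → M}
  [FiniteDimensional ℝ E] [IsManifold 𝓘(ℝ, E) ∞ M]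
  [IsContMDiffRiemannianBundle 𝓘(ℝ, E) ∞ E (fun x : M => TangentSpace 𝓘(ℝ, E) x)]
  [CompactSpace M] [ConnectedSpace M] [IsRiemannianManifold 𝓘(ℝ, E) M]

/-! ### reversal -/

section Rev

variable (F : Facts e) {D : ℝ}

theorem map_turn : (dUT E M).Map (dUT E M) (fun v => ng (phi F (v, D))) :=
  fun {E'} _ _ _ {u x} hu => map_ng (map_phi F (u := fun s => (u s, D))
    ⟨hu, Sm.of_contDiff contDiff_const _⟩)

theorem gm_turn (v : UT E M) (t : ℝ) : gm e (ng (phi F (v, D)), t) = gm e (v, D - 1 * t) := by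
  rw [gm_ng, gm_phi, one_mul, sub_eq_add_neg]

/-- **turning back changes the sign of the primitive** -/
theorem pull_turn (G : Form (dM E M)) :
    Form.pull (fun v => ng (phi F (v, D))) (map_turn F) (WR.B0 F D G) = -WR.B0 F D G := by
  rw [WR.B0, WR.pull_KT]
  have h1 : ((dUT E M).prod (Dif.lin ℝ)).Map (dM E M)
      (fun p : UT E M × ℝ => gm e (ng (phi F (p.1, D)), p.2)) := fun {E'} _ _ _ {u x} hu =>
    map_gm F (u := fun s => (ng (phi F ((u s).1, D)), (u s).2)) ⟨map_turn F hu.1, hu.2⟩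
  have h2 : Form.pull (fun p : UT E M × ℝ => (ng (phi F (p.1, D)), p.2))
      (WR.map_prodId (map_turn F)) (Form.pull (gm e) (map_gm F) G) = Form.pull _ h1 G :=
    H584.pull_pull (WR.map_prodId (map_turn F)) (map_gm F) h1 (fun _ => rfl) G
  have h3 : Form.pull (fun p : UT E M × ℝ => (p.1, D - 1 * p.2)) (WR.map_affine 1 D)
      (Form.pull (gm e) (map_gm F) G) = Form.pull _ h1 G :=
    H584.pull_pull (WR.map_affine 1 D) (map_gm F) h1 (fun p => (gm_turn F p.1 p.2).symm) G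
  rw [h2, ← h3, WR.KT_flip]

/-- the same on plots -/
theorem val_turn (G : Form (dM E M)) {V : Type} [NormedAddCommGroup V] [NormedSpace ℝ V]
    [FiniteDimensional ℝ V] {u : V → UT E M} {x : V} (hu : (dUT E M).At u x) :
    (WR.B0 F D G).val (fun s => ng (phi F (u s, D))) x = -(WR.B0 F D G).val u x := by
  have h1 := congrArg (fun w : Form (dUT E M) => w.val u x) (pull_turn F (D := D) G)
  change (Form.pull (fun v => ng (phi F (v, D))) (map_turn F) (WR.B0 F D G)).val u x =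
    (-WR.B0 F D G).val u x at h1
  rw [Form.pull_val _ _ hu, Form.neg_val] at h1
  exact h1

end Rev

/-! ### the spheres -/

section Sph

variable {F : Facts e} {D : ℝ} {hD : 0 < D} {hB : InjGE e D} {hdiam : ∀ p q : M, dist p q ≤ D}
  {ι : Type} [Fintype ι] [DecidableEq ι] {l : ℕ} {X δ : ι → UT E M → E} {ε : ℝ}
  (hP : ∀ x y : M, dist x y = D → finrank ℝ (H775.Pl e D x y) = l + 1)
  (h : Fam F hD hB hdiam l X δ ε)
  {H : Type} [NormedAddCommGroup H] [NormedSpace ℝ H] [FiniteDimensional ℝ H]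

/-- the linear map to the vectors of the plane which are orthogonal to `v` -/
def thA (F : Facts e) (hD : 0 < D) (hB : InjGE e D) (hdiam : ∀ p q : M, dist p q ≤ D)
    (X : ι → UT E M → E) (v : UT E M) (g : H →L[ℝ] EuclideanSpace ℝ ι) : H →ₗ[ℝ] E where
  toFun y := Th0 F hD hB hdiam (XX X (g y)) v
  map_add' y z := by
    rw [Th0_XX, Th0_XX, Th0_XX, map_add, ← Finset.sum_add_distrib]
    refine Finset.sum_congr rfl fun i _ => ?_
    rw [PiLp.add_apply, add_smul]
  map_smul' c y := by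
    rw [Th0_XX, Th0_XX, map_smul, RingHom.id_apply, Finset.smul_sum]
    refine Finset.sum_congr rfl fun i _ => ?_
    rw [PiLp.smul_apply, smul_eq_mul, mul_smul]

theorem thA_apply (v : UT E M) (g : H →L[ℝ] EuclideanSpace ℝ ι) (y : H) :
    thA F hD hB hdiam X v g y = Th0 F hD hB hdiam (XX X (g y)) v := rfl

theorem isCap_sph (v : UT E M) {g : H →L[ℝ] EuclideanSpace ℝ ι}
    (hg : ∀ y, Pm F D X δ ε v (g y) = g y) :
    IsCap v g (thA F hD hB hdiam X v g) (fun y => sph hP h v (g y)) where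
  ft y := rfl
  vc y := by
    rw [vec'_sph, sphv, hg]
    rfl

include hP h in
theorem thA_inj (v : UT E M) {g : H →L[ℝ] EuclideanSpace ℝ ι} (hi : Function.Injective g)
    (hg : ∀ y, Pm F D X δ ε v (g y) = g y) :
    Function.Injective (thA F hD hB hdiam X v g) := by
  rw [injective_iff_map_eq_zero]
  intro y hy
  have h1 := h.inj hP v (hg y) hy
  exact hi (by rw [h1, map_zero])

variable [MeasurableSpace H] [BorelSpace H]

/-- **the integral over the sphere of a corner loop is, up to sign, the integral over the unit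
sphere of the plane**; one sign for all the forms -/
theorem JJ_sph (hl : 2 ≤ l) (bH : Basis (Fin l) ℝ H) {v : UT E M} (f : Fr e D l) (hf : f.v = v)
    {g : H →L[ℝ] EuclideanSpace ℝ ι} (hi : Function.Injective g)
    (hg : ∀ y, Pm F D X δ ε v (g y) = g y) :
    ∃ n : ℤ, |n| = 1 ∧ ∀ b : Form (dUT E M), (Form.pull (evR f) (map_evR f) b).d = 0 →
      JJ bH (fun y => b.val (fun y => sph hP h v (g y)) y) = n * kfP b f := by
  subst hf
  exact JJ_cap F hD hB hdiam hP hl bH f hi (thA_inj hP h f.v hi hg)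
    (fun y => Th0_mem F hD hB hdiam _ _) (isCap_sph hP h f.v hg)

end Sph

/-! ### the values -/

section Value

variable {F : Facts e} {D : ℝ} {hD : 0 < D} {hB : InjGE e D} {hdiam : ∀ p q : M, dist p q ≤ D}
  {ι : Type} [Fintype ι] [DecidableEq ι] {n : ℕ} {X δ : ι → UT E M → E} {ε : ℝ}
  (hl : ∀ x y : M, dist x y = D → finrank ℝ (H775.Pl e D x y) = 2 * n + 2)
  (h : Fam F hD hB hdiam (2 * n + 1) X δ ε) {p : M}
  {Pi : TangentSpace 𝓘(ℝ, E) p → TangentSpace 𝓘(ℝ, E) p →L[ℝ] TangentSpace 𝓘(ℝ, E) p}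
  {o : TangentSpace 𝓘(ℝ, E) p → Fm.Lam (TangentSpace 𝓘(ℝ, E) p)}
  {ρ : TangentSpace 𝓘(ℝ, E) p → ℝ} {r₀ : ℝ}
  (hJ : FE.LineP e D p n Pi o) (hρ : WE.Rho e D p ρ r₀) (a : ℝ) (hN : 2 ≤ finrank ℝ E)
  {H : Type} [NormedAddCommGroup H] [NormedSpace ℝ H] [FiniteDimensional ℝ H]
  [MeasurableSpace H] [BorelSpace H] (hn : 1 ≤ n) (bH : Basis (Fin (2 * n + 1)) ℝ H)
include hN hn

/-- **SPH-VAL, the even spheres** -/
theorem abs_JJ_sph (v : UT E M) {g : H →L[ℝ] EuclideanSpace ℝ ι} (hi : Function.Injective g)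
    (hg : ∀ y, Pm F D X δ ε v (g y) = g y) :
    |JJ bH (fun y => (WR.B0 F D (FE.FF F hD hB hdiam hl hJ hρ a)).val
      (fun y => sph (l := 2 * n + 1) hl h v (g y)) y)| = FE.kap n a := by
  obtain ⟨f, hf⟩ : ∃ f : Fr e D (2 * n + 1), f.v = v := by
    obtain ⟨W, hW⟩ := exists_isLF F hD hB hdiam (l := 2 * n + 1) hl v
    exact ⟨⟨(v, W), hW⟩, rfl⟩
  obtain ⟨m, hm, hv⟩ := JJ_sph (l := 2 * n + 1) hl h (by omega) bH f hf hi hg
  have hG : Form.IsDeg (2 * n + 1 + 1) (FE.FF F hD hB hdiam hl hJ hρ a) :=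
    DegC.ofWF (FE.FF_deg F hD hB hdiam hl hJ hρ a)
  rw [hv _ (evR_d F hD hB hdiam hG (B0_d F (FE.FF_d F hD hB hdiam hl hJ hρ a)) _), abs_mul,
    abs_kfP_all F hD hB hdiam hl hJ hρ a hN]
  have h3 : |(m : ℝ)| = 1 := by
    have : ((|m| : ℤ) : ℝ) = 1 := by rw [hm]; norm_num
    rwa [Int.cast_abs] at this
  rw [h3, one_mul]

/-- **SPH-VAL, the odd spheres** -/
theorem abs_JJ_odd (v : UT E M) {g : H →L[ℝ] EuclideanSpace ℝ ι} (hi : Function.Injective g)
    (hg : ∀ y, Pm F D X δ ε v (g y) = g y) :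
    |JJ bH (fun y => (WR.B0 F D (FE.FF F hD hB hdiam hl hJ hρ a)).val
      (fun y => odd' (l := 2 * n + 1) hl h v (g y)) y)| = FE.kap n a := by
  have hg' : ∀ y, Pm F D X δ ε (phi F (v, D)) (g y) = g y := fun y => by
    rw [Fam.Pm_phi F hD hB hdiam]
    exact hg y
  rw [← abs_JJ_sph hl h hJ hρ a hN hn bH (phi F (v, D)) hi hg']
  have hc : ∀ y : H, (dUT E M).At (fun _ : H => phi F (v, D)) y := fun y =>
    Eventually.of_forall fun y => contMDiffAt_const (c := (phi F (v, D)).1)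
  have h1 : ∀ y, (WR.B0 F D (FE.FF F hD hB hdiam hl hJ hρ a)).val
      (fun y => odd' (l := 2 * n + 1) hl h v (g y)) y =
      -(WR.B0 F D (FE.FF F hD hB hdiam hl hJ hρ a)).val
        (fun y => sph (l := 2 * n + 1) hl h (phi F (v, D)) (g y)) y := fun y => by
    refine val_turn F _ ?_
    exact S3B1.at_sph (l := 2 * n + 1) hl h (hc y)
      (Sm.of_contDiff g.contDiff y)
  rw [TW.JJ_congr bH h1]
  have h2 : JJ bH (fun y => -(WR.B0 F D (FE.FF F hD hB hdiam hl hJ hρ a)).val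
        (fun y => sph (l := 2 * n + 1) hl h (phi F (v, D)) (g y)) y) =
      -JJ bH (fun y => (WR.B0 F D (FE.FF F hD hB hdiam hl hJ hρ a)).val
        (fun y => sph (l := 2 * n + 1) hl h (phi F (v, D)) (g y)) y) := by
    unfold TW.JJ
    rw [← integral_neg]
    refine integral_congr_ae (Eventually.of_forall fun y => ?_)
    simp only
    rw [← neg_one_smul ℝ, Q.evalForm_smul, neg_one_mul]
  rw [h2, abs_neg]

end Value

end

end Vale.Agent.P231.SV
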