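import Vale.Agent.P231.TW.Cone
import Vale.Agent.P231.H766.Uec2

/-!
# P231, stage 3, [S3-B] SPH-VAL (1): the cap map of a vector space to a sphere has degree one
-/

set_option linter.unusedSectionVars false
set_option linter.unusedVariables false

open Module MeasureTheory Set Metric Filter
open scoped ContDiff Topology

namespace Vale.Agent.P231.SV

open Fm WA TW
open Vale.Agent.P231.H766 (stp stp_contDiff stp_of_le stp_of_ge stp_nonneg)

/-- the axial coefficient -/
noncomputable def al (s : ℝ) : ℝ := 1 - 2 * stp (2 * s)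

/-- the equatorial coefficient -/
noncomputable def be (s : ℝ) : ℝ := 1 - stp s

theorem contDiff_al : ContDiff ℝ ∞ al :=
  contDiff_const.sub (contDiff_const.mul (stp_contDiff.comp (contDiff_const.mul contDiff_id)))

theorem contDiff_be : ContDiff ℝ ∞ be := contDiff_const.sub stp_contDiff

theorem al_in {s : ℝ} (h : s ≤ 1 / 6) : al s = 1 := by
  rw [al, stp_of_le (by linarith), mul_zero, sub_zero]

theorem al_out {s : ℝ} (h : 1 / 3 ≤ s) : al s = -1 := by
  rw [al, stp_of_ge (by linarith)]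
  norm_num

theorem be_in {s : ℝ} (h : s ≤ 1 / 3) : be s = 1 := by
  rw [be, stp_of_le h, sub_zero]

theorem be_out {s : ℝ} (h : 2 / 3 ≤ s) : be s = 0 := by
  rw [be, stp_of_ge h, sub_self]

theorem be_pos {s : ℝ} (h : s < 2 / 3) : 0 < be s := by
  rw [be, stp, sub_pos]
  exact Real.smoothTransition.lt_one_of_lt_one (by linarith)

variable {H : Type*} [NormedAddCommGroup H] [NormedSpace ℝ H] [FiniteDimensional ℝ H]
variable {V : Type*} [NormedAddCommGroup V] [InnerProductSpace ℝ V]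
variable {W : Type*} [NormedAddCommGroup W] [InnerProductSpace ℝ W] [FiniteDimensional ℝ W]
  [MeasurableSpace W] [BorelSpace W]

theorem fderiv_rad {y : W} (hy : y ≠ 0) :
    fderiv ℝ (rad : W → W) y = ‖y‖⁻¹ • ContinuousLinearMap.id ℝ W +
      (fderiv ℝ (fun z : W => ‖z‖⁻¹) y).smulRight y := by
  have hn : DifferentiableAt ℝ (fun z : W => ‖z‖⁻¹) y :=
    (differentiableAt_id.norm ℝ hy).inv (norm_ne_zero_iff.2 hy)
  exact (hn.hasFDerivAt.smul (hasFDerivAt_id y)).fderiv

/-- the unnormalised cap map -/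
noncomputable def cv (e0 : W) (g : H →L[ℝ] V) (G : H →L[ℝ] W) (y : H) : W :=
  al (‖g y‖ ^ 2) • e0 + be (‖g y‖ ^ 2) • G y

/-- the cap map -/
noncomputable def cp (e0 : W) (g : H →L[ℝ] V) (G : H →L[ℝ] W) (y : H) : W := rad (cv e0 g G y)

variable {e0 : W} {g : H →L[ℝ] V} {G : H →L[ℝ] W}

theorem cv_ne (he : ‖e0‖ = 1) (hG : Function.Injective G) (ho : ∀ y, inner ℝ e0 (G y) = (0 : ℝ))
    (y : H) : cv e0 g G y ≠ 0 := by
  intro h0
  have h1 : inner ℝ e0 (cv e0 g G y) = al (‖g y‖ ^ 2) := by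
    rw [cv, inner_add_right, real_inner_smul_right, real_inner_smul_right, ho,
      real_inner_self_eq_norm_sq, he]
    ring
  rw [h0, inner_zero_right] at h1
  have h2 : ‖g y‖ ^ 2 < 1 / 3 := by
    by_contra h
    rw [al_out (not_lt.1 h)] at h1
    norm_num at h1
  have h3 : cv e0 g G y = G y := by
    rw [cv, ← h1, be_in h2.le, zero_smul, one_smul, zero_add]
  have h4 : y = 0 := hG (by rw [← h3, h0, map_zero])
  subst h4
  rw [map_zero, norm_zero, zero_pow two_ne_zero, al_in (by norm_num)] at h1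
  exact zero_ne_one h1

theorem contDiff_cv : ContDiff ℝ ∞ (cv e0 g G) := by
  have h1 : ContDiff ℝ ∞ fun y : H => ‖g y‖ ^ 2 := (contDiff_norm_sq ℝ).comp g.contDiff
  exact ((contDiff_al.comp h1).smul contDiff_const).add ((contDiff_be.comp h1).smul G.contDiff)

theorem cv_out {y : H} (hy : 2 / 3 ≤ ‖g y‖ ^ 2) : cv e0 g G y = -e0 := by
  rw [cv, al_out (by linarith), be_out hy, zero_smul, add_zero, neg_one_smul]

theorem cp_out (he : ‖e0‖ = 1) {y : H} (hy : 2 / 3 ≤ ‖g y‖ ^ 2) : cp e0 g G y = -e0 := by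
  rw [cp, cv_out hy, rad, norm_neg, he, inv_one, one_smul]

theorem cp_zero (he : ‖e0‖ = 1) : cp e0 g G 0 = e0 := by
  rw [cp, cv, map_zero, map_zero, norm_zero, zero_pow two_ne_zero, al_in (by norm_num), smul_zero,
    add_zero, one_smul, rad, he, inv_one, one_smul]

theorem norm_cp (he : ‖e0‖ = 1) (hG : Function.Injective G)
    (ho : ∀ y, inner ℝ e0 (G y) = (0 : ℝ)) (y : H) : ‖cp e0 g G y‖ = 1 :=
  norm_rad (cv_ne he hG ho y)

theorem contDiff_cp (he : ‖e0‖ = 1) (hG : Function.Injective G)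
    (ho : ∀ y, inner ℝ e0 (G y) = (0 : ℝ)) : ContDiff ℝ ∞ (cp e0 g G) :=
  contDiff_iff_contDiffAt.2 fun y => (contDiffAt_rad (cv_ne he hG ho y)).comp y
    contDiff_cv.contDiffAt

theorem isCompact_K (hg : Function.Injective g) : IsCompact {y : H | ‖g y‖ ^ 2 ≤ 2 / 3} := by
  have h1 : Topology.IsClosedEmbedding g :=
    LinearMap.isClosedEmbedding_of_injective (f := (g : H →ₗ[ℝ] V)) (LinearMap.ker_eq_bot.2 hg)
  have h2 : {y : H | ‖g y‖ ^ 2 ≤ 2 / 3} ⊆ g ⁻¹' closedBall 0 1 := fun y hy => by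
    have hy' : ‖g y‖ ^ 2 ≤ 2 / 3 := hy
    rw [mem_preimage, mem_closedBall_zero_iff]
    nlinarith [norm_nonneg (g y)]
  have h3 : IsClosed {y : H | ‖g y‖ ^ 2 ≤ 2 / 3} :=
    isClosed_le ((continuous_norm.comp g.continuous).pow 2) continuous_const
  let R := LinearMap.range (g : H →ₗ[ℝ] V)
  let e : H ≃ₗ[ℝ] R := LinearEquiv.ofInjective (g : H →ₗ[ℝ] V) hg
  have h4 : Bornology.IsBounded (g ⁻¹' closedBall (0 : V) 1) := by
    let L : R →L[ℝ] H := LinearMap.toContinuousLinearMap (e.symm : R →ₗ[ℝ] H)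
    refine (isBounded_iff_forall_norm_le).2 ⟨‖L‖ * 1, fun y hy => ?_⟩
    rw [mem_preimage, mem_closedBall_zero_iff] at hy
    have h5 : L (e y) = y := e.symm_apply_apply y
    have h6 : ‖e y‖ = ‖g y‖ := rfl
    calc ‖y‖ = ‖L (e y)‖ := by rw [h5]
      _ ≤ ‖L‖ * ‖e y‖ := L.le_opNorm _
      _ ≤ ‖L‖ * 1 := by
        rw [h6]
        exact mul_le_mul_of_nonneg_left hy (norm_nonneg L)
  exact Metric.isCompact_of_isClosed_isBounded h3 (h4.subset h2)

theorem cp_const (he : ‖e0‖ = 1) {y : H} (hy : y ∉ {y : H | ‖g y‖ ^ 2 ≤ 2 / 3}) :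
    cp e0 g G =ᶠ[𝓝 y] fun _ => -e0 := by
  have hy' : 2 / 3 < ‖g y‖ ^ 2 := not_le.1 hy
  have h1 : Continuous fun z : H => ‖g z‖ ^ 2 := (continuous_norm.comp g.continuous).pow 2
  filter_upwards [(isOpen_lt continuous_const h1).mem_nhds hy'] with z hz
  exact cp_out he (le_of_lt hz)

theorem cyc_cp (he : ‖e0‖ = 1) (hg : Function.Injective g) (hG : Function.Injective G)
    (ho : ∀ y, inner ℝ e0 (G y) = (0 : ℝ)) (h2 : 2 ≤ finrank ℝ H) :
    Cyc {y : H | ‖g y‖ ^ 2 ≤ 2 / 3} (cp e0 g G) where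
  smooth := contDiff_cp he hG ho
  norm := norm_cp he hG ho
  compact := isCompact_K hg
  rank y hy := by
    rw [(cp_const he hy).fderiv_eq, fderiv_const_apply, rk_zero]
    omega

theorem cp_unique (he : ‖e0‖ = 1) (hG : Function.Injective G)
    (ho : ∀ y, inner ℝ e0 (G y) = (0 : ℝ)) {y : H} (hy : cp e0 g G y = cp e0 g G 0) : y = 0 := by
  rw [cp_zero he] at hy
  have he0 : e0 ≠ 0 := by
    intro h
    rw [h, norm_zero] at he
    exact zero_ne_one he
  rcases le_or_gt (2 / 3) (‖g y‖ ^ 2) with h | h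
  · rw [cp_out he h] at hy
    have h2 := congrArg (fun v => inner ℝ e0 v) hy
    simp only [inner_neg_right, real_inner_self_eq_norm_sq, he] at h2
    norm_num at h2
  · have h1 : inner ℝ (G y) (cp e0 g G y) = (0 : ℝ) := by
      rw [hy, real_inner_comm, ho]
    rw [cp, rad, real_inner_smul_right, cv, inner_add_right, real_inner_smul_right,
      real_inner_comm, ho, mul_zero, zero_add, real_inner_smul_right,
      real_inner_self_eq_norm_sq] at h1
    have h2 : ‖al (‖g y‖ ^ 2) • e0 + be (‖g y‖ ^ 2) • G y‖⁻¹ ≠ 0 :=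
      inv_ne_zero (norm_ne_zero_iff.2 (cv_ne he hG ho y))
    have h3 : ‖G y‖ ^ 2 = 0 :=
      (mul_eq_zero.1 ((mul_eq_zero.1 h1).resolve_left h2)).resolve_left (be_pos h).ne'
    have h4 : G y = 0 := norm_eq_zero.1 (pow_eq_zero_iff two_ne_zero |>.1 h3)
    exact hG (by rw [h4, map_zero])

theorem cp_inj (he : ‖e0‖ = 1) (hG : Function.Injective G)
    (ho : ∀ y, inner ℝ e0 (G y) = (0 : ℝ)) : Function.Injective (fderiv ℝ (cp e0 g G) 0) := by
  have he0 : e0 ≠ 0 := by
    intro h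
    rw [h, norm_zero] at he
    exact zero_ne_one he
  have h1 : cp e0 g G =ᶠ[𝓝 0] fun y => rad (e0 + G y) := by
    have h2 : Continuous fun z : H => ‖g z‖ ^ 2 := (continuous_norm.comp g.continuous).pow 2
    have h3 : ‖g (0 : H)‖ ^ 2 < 1 / 6 := by
      rw [map_zero, norm_zero]
      norm_num
    filter_upwards [(isOpen_lt h2 continuous_const).mem_nhds h3] with z hz
    have hz' : ‖g z‖ ^ 2 < 1 / 6 := hz
    rw [cp, cv, al_in hz'.le, be_in (by linarith), one_smul, one_smul]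
  have h4 : HasFDerivAt (fun y : H => e0 + G y) G 0 := G.hasFDerivAt.const_add e0
  have h5 : fderiv ℝ (rad : W → W) e0 = ‖e0‖⁻¹ • ContinuousLinearMap.id ℝ W +
      (fderiv ℝ (fun z : W => ‖z‖⁻¹) e0).smulRight e0 := fderiv_rad he0
  have h6 : DifferentiableAt ℝ (rad : W → W) (e0 + G 0) := by
    rw [map_zero, add_zero]
    exact (contDiffAt_rad he0).differentiableAt (by simp)
  have h7 : fderiv ℝ (cp e0 g G) 0 = (fderiv ℝ (rad : W → W) e0).comp G := by
    have h8 := h6.hasFDerivAt.comp (0 : H) h4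
    rw [h1.fderiv_eq]
    have h9 : fderiv ℝ (rad : W → W) (e0 + G 0) = fderiv ℝ (rad : W → W) e0 := by
      rw [map_zero, add_zero]
    rw [h9] at h8
    exact h8.fderiv
  rw [h7, injective_iff_map_eq_zero]
  intro u hu
  rw [ContinuousLinearMap.comp_apply, h5, he, inv_one, one_smul] at hu
  have h8 : G u + (fderiv ℝ (fun z : W => ‖z‖⁻¹) e0 (G u)) • e0 = 0 := hu
  have h9 := congrArg (fun v => inner ℝ (G u) v) h8
  simp only [inner_add_right, real_inner_smul_right, inner_zero_right] at h9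
  rw [real_inner_comm (e0) (G u), ho, mul_zero, add_zero, real_inner_self_eq_norm_sq] at h9
  have h10 : G u = 0 := norm_eq_zero.1 (pow_eq_zero_iff two_ne_zero |>.1 h9)
  exact hG (by rw [h10, map_zero])

/-- **the cap map has degree one** -/
theorem cp_degree [MeasurableSpace H] [BorelSpace H]
    (he : ‖e0‖ = 1) (hg : Function.Injective g) (hG : Function.Injective G)
    (ho : ∀ y, inner ℝ e0 (G y) = (0 : ℝ)) {k : ℕ} (hk : 2 ≤ k)
    (bH : Basis (Fin k) ℝ H) (bW : Basis (Fin (1 + k)) ℝ W) :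
    ∃ n : ℤ, |n| = 1 ∧ ∀ om : W → Lam W, ContDiffOn ℝ ∞ om {0}ᶜ → Hom om →
      JJ bH (pb (cp e0 g G) om) = n * JJ bW (fun y => Q.dR rst y * om y) := by
  have hH : finrank ℝ H = k := (finrank_eq_card_basis bH).trans (Fintype.card_fin k)
  exact (cyc_cp he hg hG ho (by omega)).degree_one (by omega) bH bW (cp_inj he hG ho)
    fun y _ hy => cp_unique he hG ho hy

end Vale.Agent.P231.SV
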