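import Vale.Agent.P231.SV.Deg
import Vale.Agent.P231.CoZ.Val

/-!
# P231, stage 3, [S3-B] SPH-VAL (2): the integral of a form over the cap map to the unit sphere of
the plane of a unit vector
-/

set_option maxSynthPendingDepth 3
set_option linter.unusedSectionVars false
set_option linter.unusedVariables false

open Bundle Manifold Set Filter Module MeasureTheory
open scoped ContDiff Manifold Topology

namespace Vale.Agent.P231.SV

noncomputable section

open Vale.Agent.P234 Vale.Agent.P231 Vale.Agent.P231.Fm Vale.Agent.P231.W Vale.Agent.P231.WR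
open Vale.Agent.P231.S2II Vale.Agent.P231.CoZ
open Vale.Agent.P231.Fm (Sm Dif Form Lam)
open Vale.Agent.P231.Q (dR Cut)
open Vale.Agent.P231.TW (JJ Hom Cyc)


theorem JJ_reindex {X : Type*} [NormedAddCommGroup X] [NormedSpace ℝ X] [FiniteDimensional ℝ X]
    [MeasurableSpace X] [BorelSpace X] {m m' : ℕ} (h : m = m') (b : Basis (Fin m) ℝ X)
    (w : X → Lam X) : JJ (b.reindex (finCongr h)) w = JJ b w := by
  subst h
  have h1 : b.reindex (finCongr rfl) = b := by
    ext i
    simp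
  rw [h1]

variable {E : Type*} [NormedAddCommGroup E] [NormedSpace ℝ E]
  {M : Type*} [MetricSpace M] [ChartedSpace E M]
  [RiemannianBundle (fun x : M => TangentSpace 𝓘(ℝ, E) x)]
  {e : ∀ x : M, TangentSpace 𝓘(ℝ, E) x → M}
  [FiniteDimensional ℝ E] [IsManifold 𝓘(ℝ, E) ∞ M]
  [IsContMDiffRiemannianBundle 𝓘(ℝ, E) ∞ E (fun x : M => TangentSpace 𝓘(ℝ, E) x)]
  [CompactSpace M] [ConnectedSpace M] [IsRiemannianManifold 𝓘(ℝ, E) M]

section Sphere

variable {D : ℝ} {l : ℕ} (b : Form (dUT E M)) (f : Fr e D l)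

theorem at_evR {y : Eul (l + 1)} (hy : y ≠ 0) : (dUT E M).At (evR f) y :=
  map_evR f (S2I.at_id hy)

/-- the form on the punctured plane -/
def om (y : Eul (l + 1)) : Lam (Eul (l + 1)) := b.val (evR f) y

theorem om_smooth : ContDiffOn ℝ ∞ (om b f) {0}ᶜ := fun y hy =>
  (b.smooth (at_evR f hy)).contDiffWithinAt

theorem rad_ne {y : Eul (l + 1)} (hy : y ≠ 0) : (rad y : Eul (l + 1)) ≠ 0 := by
  intro h
  have h1 := Fm.norm_rad hy
  rw [h, norm_zero] at h1
  exact zero_ne_one h1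

theorem rad_of_norm {y : Eul (l + 1)} (hy : ‖y‖ = 1) : (rad y : Eul (l + 1)) = y := by
  rw [rad, hy, inv_one, one_smul]

theorem om_hom : Hom (om b f) := by
  intro y hy
  have h1 := b.nat (g := (rad : Eul (l + 1) → Eul (l + 1))) (x := y) (at_evR f (rad_ne hy))
    (S2I.sm_rad hy)
  change Fm.pull (fderiv ℝ rad y) (b.val (evR f) (rad y)) = b.val (evR f) y
  rw [← h1]
  have h2 : (dUT E M).At (evR f ∘ (rad : Eul (l + 1) → Eul (l + 1))) y :=
    (dUT E M).comp (at_evR f (rad_ne hy)) (S2I.sm_rad hy)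
  refine b.congr h2 ?_
  filter_upwards [isOpen_ne.mem_nhds hy] with z hz
  change evP (f, rad (rad z)) = evP (f, rad z)
  rw [rad_of_norm (Fm.norm_rad hz)]

theorem kfP_eq_JJ (hcl : (Form.pull (evR f) (map_evR f) b).d = 0) :
    kfP b f = JJ (bas (l + 1)).toBasis (fun y => dR rst y * om b f y) := by
  rw [kfP_eq_sint, S2I.sint_eq_cut _ hcl cut_rst, JJ, OrthonormalBasis.addHaar_eq_volume]
  refine integral_congr_ae (Eventually.of_forall fun y => ?_)
  rcases eq_or_ne y 0 with rfl | hy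
  · have h5 : dR (rst : Eul (l + 1) → ℝ) 0 = 0 := dR_rst_zero (by rw [norm_zero]; norm_num)
    simp only [h5, zero_mul]
    rfl
  · simp only
    rw [Form.pull_val _ _ (S2I.at_id hy), OrthonormalBasis.coe_toBasis]
    rfl

variable {H : Type} [NormedAddCommGroup H] [NormedSpace ℝ H] [FiniteDimensional ℝ H]

theorem val_Phi {Φ : H → Eul (l + 1)} (hs : ContDiff ℝ ∞ Φ) (hn : ∀ y, ‖Φ y‖ = 1) (y : H) :
    b.val (fun y => evP (f, Φ y)) y = Fm.pb Φ (om b f) y := by
  have hne : Φ y ≠ 0 := by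
    intro h
    have h1 := hn y
    rw [h, norm_zero] at h1
    exact zero_ne_one h1
  have h1 := b.nat (g := Φ) (x := y) (at_evR f hne) (Sm.of_contDiff hs y)
  have h2 : (fun y => evP (f, Φ y)) = evR f ∘ Φ := by
    funext z
    change evP (f, Φ z) = evP (f, rad (Φ z))
    rw [rad_of_norm (hn z)]
  rw [h2, h1]
  rfl

theorem at_Phi {Φ : H → Eul (l + 1)} (hs : ContDiff ℝ ∞ Φ) (hn : ∀ y, ‖Φ y‖ = 1) (y : H) :
    (dUT E M).At (fun y => evP (f, Φ y)) y := by
  have hne : Φ y ≠ 0 := by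
    intro h
    have h1 := hn y
    rw [h, norm_zero] at h1
    exact zero_ne_one h1
  have h1 := (dUT E M).comp (at_evR f hne) (Sm.of_contDiff hs y)
  have h2 : (fun y => evP (f, Φ y)) = evR f ∘ Φ := by
    funext z
    change evP (f, Φ z) = evP (f, rad (Φ z))
    rw [rad_of_norm (hn z)]
  rw [h2]
  exact h1

/-- the coordinates of the vectors of a frame, as a continuous linear map -/
def pcL (A : H →ₗ[ℝ] E) : H →L[ℝ] Eul (l + 1) := LinearMap.toContinuousLinearMap
  { toFun := fun y => pc f (A y)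
    map_add' := fun y z => by
      ext i
      rw [map_add, PiLp.add_apply, pc_apply, pc_apply, pc_apply, ip_add_right']
    map_smul' := fun c y => by
      ext i
      rw [map_smul, PiLp.smul_apply, pc_apply, pc_apply, ip_smul_right', RingHom.id_apply,
        smul_eq_mul] }

theorem pcL_apply (A : H →ₗ[ℝ] E) (y : H) : pcL f A y = pc f (A y) := rfl

end Sphere

section Cap

variable (F : Facts e) {D : ℝ} (hD : 0 < D) (hB : InjGE e D) (hdiam : ∀ p q : M, dist p q ≤ D)
  {l : ℕ} (hP : ∀ x y : M, dist x y = D → finrank ℝ (H775.Pl e D x y) = l + 1)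
  {H : Type} [NormedAddCommGroup H] [NormedSpace ℝ H] [FiniteDimensional ℝ H]
  {V : Type*} [NormedAddCommGroup V] [InnerProductSpace ℝ V]

/-- `w` is the cap map of the unit vector `v`, in the coordinates `g`, with the linear map `A` to the
vectors of the plane which are orthogonal to `v` -/
structure IsCap (v : UT E M) (g : H →L[ℝ] V) (A : H →ₗ[ℝ] E) (w : H → UT E M) : Prop where
  ft : ∀ y, foot (w y) = foot v
  vc : ∀ y, vec' (w y) = (nm (foot v) (al (‖g y‖ ^ 2) • vec' v + be (‖g y‖ ^ 2) • A y))⁻¹ •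
    (al (‖g y‖ ^ 2) • vec' v + be (‖g y‖ ^ 2) • A y)

variable {F hD hB hdiam}

theorem pb_lin (f : Fr e D l) (c d : ℝ) (y z : Eul (l + 1)) :
    CoZ.pb (E := E) f (c • y + d • z) = c • CoZ.pb f y + d • CoZ.pb f z := by
  simp only [CoZ.pb, PiLp.add_apply, PiLp.smul_apply, add_smul, smul_eq_mul, mul_smul,
    Finset.sum_add_distrib, Finset.smul_sum]

theorem pb_smul (f : Fr e D l) (c : ℝ) (y : Eul (l + 1)) : CoZ.pb (E := E) f (c • y) = c • CoZ.pb f y := by
  simp only [CoZ.pb, PiLp.smul_apply, smul_eq_mul, mul_smul, Finset.smul_sum]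

theorem pb_single (f : Fr e D l) : CoZ.pb (E := E) f (EuclideanSpace.single 0 1) = vec' f.v := by
  rw [CoZ.pb, Finset.sum_eq_single 0]
  · simp
  · intro i _ hi
    simp [hi]
  · intro h
    exact absurd (Finset.mem_univ _) h

theorem nm_pb' (f : Fr e D l) (y : Eul (l + 1)) : nm (foot f.v) (CoZ.pb (E := E) f y) = ‖y‖ :=
  (TT f).norm_map y

variable (F hD hB hdiam)
include F hD hB hdiam hP

theorem cap_eq (f : Fr e D l) {g : H →L[ℝ] V} {A : H →ₗ[ℝ] E}
    (hA : ∀ y, (A y : TangentSpace 𝓘(ℝ, E) (foot f.v)) ∈ Lf e D f.v) {w : H → UT E M}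
    (hw : IsCap f.v g A w) (y : H)
    (hn : ‖cp (EuclideanSpace.single 0 1) g (pcL f A) y‖ = 1) :
    w y = evP (f, cp (EuclideanSpace.single 0 1) g (pcL f A) y) := by
  have h1 : CoZ.pb f (pc f (A y)) = A y := pb_pc F hD hB hdiam hP f (mem_Lf.1 (hA y)).1
  have h2 : CoZ.pb f (cv (EuclideanSpace.single 0 1) g (pcL f A) y) =
      al (‖g y‖ ^ 2) • vec' f.v + be (‖g y‖ ^ 2) • A y := by
    rw [cv, pb_lin, pb_single, pcL_apply, h1]
  have h3 := nm_pb' f (cv (EuclideanSpace.single 0 1) g (pcL f A) y)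
  rw [h2] at h3
  have h4 : vec' (w y) = CoZ.pb f (cp (EuclideanSpace.single 0 1) g (pcL f A) y) := by
    rw [hw.vc, cp, rad, pb_smul, h2, h3]
  rw [evP_of f hn]
  refine Eq.trans (mk_eta (w y)).symm ?_
  exact mk_congr (hw.ft y) h4

theorem pcL_inj (f : Fr e D l) {A : H →ₗ[ℝ] E} (hi : Function.Injective A)
    (hA : ∀ y, (A y : TangentSpace 𝓘(ℝ, E) (foot f.v)) ∈ Lf e D f.v) :
    Function.Injective (pcL f A) := by
  intro y z h
  have h1 : CoZ.pb f (pc f (A y)) = A y := pb_pc F hD hB hdiam hP f (mem_Lf.1 (hA y)).1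
  have h2 : CoZ.pb f (pc f (A z)) = A z := pb_pc F hD hB hdiam hP f (mem_Lf.1 (hA z)).1
  have h3 : pc f (A y) = pc f (A z) := h
  exact hi (by rw [← h1, ← h2, h3])

omit F hD hB hdiam hP in
theorem pcL_orth (f : Fr e D l) {A : H →ₗ[ℝ] E}
    (hA : ∀ y, (A y : TangentSpace 𝓘(ℝ, E) (foot f.v)) ∈ Lf e D f.v) (y : H) :
    inner ℝ (EuclideanSpace.single 0 1 : Eul (l + 1)) (pcL f A y) = (0 : ℝ) := by
  rw [EuclideanSpace.inner_single_left, pcL_apply, pc_apply]
  simp only [map_one, one_mul]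
  exact (mem_Lf.1 (hA y)).2

/-- **the integral of a form over the cap map is, up to sign, its integral over the unit sphere of
the plane** -/
theorem JJ_cap [MeasurableSpace H] [BorelSpace H] (hl : 2 ≤ l) (bH : Basis (Fin l) ℝ H)
    (f : Fr e D l) {g : H →L[ℝ] V} {A : H →ₗ[ℝ] E} (hg : Function.Injective g)
    (hi : Function.Injective A)
    (hA : ∀ y, (A y : TangentSpace 𝓘(ℝ, E) (foot f.v)) ∈ Lf e D f.v) {w : H → UT E M}
    (hw : IsCap f.v g A w) :
    ∃ n : ℤ, |n| = 1 ∧ ∀ b : Form (dUT E M), (Form.pull (evR f) (map_evR f) b).d = 0 →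
      JJ bH (fun y => b.val w y) = n * kfP b f := by
  have he : ‖(EuclideanSpace.single 0 1 : Eul (l + 1))‖ = 1 := by simp
  have hG := pcL_inj F hD hB hdiam hP f hi hA
  have ho := pcL_orth f hA
  obtain ⟨n, hn1, hn⟩ := cp_degree (g := g) he hg hG ho hl bH
    ((bas (l + 1)).toBasis.reindex (finCongr (add_comm l 1)))
  refine ⟨n, hn1, fun b hb => ?_⟩
  have h1 : w = fun y => evP (f, cp (EuclideanSpace.single 0 1) g (pcL f A) y) := by
    funext y
    exact cap_eq F hD hB hdiam hP f hA hw y (norm_cp he hG ho y)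
  have h2 : JJ bH (fun y => b.val w y) =
      JJ bH (Fm.pb (cp (EuclideanSpace.single 0 1) g (pcL f A)) (om b f)) := by
    refine TW.JJ_congr bH fun y => ?_
    rw [h1]
    exact val_Phi b f (contDiff_cp he hG ho) (norm_cp he hG ho) y
  rw [h2, hn _ (om_smooth b f) (om_hom b f), JJ_reindex, kfP_eq_JJ b f hb]

end Cap

end

end Vale.Agent.P231.SV
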